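import Vale.Agent.P352.H246.Ext
import Vale.Agent.P352R.L22.Ab
import Vale.Agent.P352R.Pub

/-!
# P352R, block Bz: local vectors are analytic (helper80)
-/

set_option autoImplicit false
set_option linter.all false

namespace Vale.Agent.P352R.Bz

open P352 H246
open GF (Theory V)
open scoped Nat

variable {D : Type*} [NormedAddCommGroup D] [InnerProductSpace ℂ D]

theorem fact_add (a b : ℕ) : ((a + b)! : ℝ) ≤ 2 ^ (a + b) * a ! * b ! := by
  have h : (a + b)! ≤ 2 ^ (a + b) * a ! * b ! := by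
    rw [← Nat.add_choose_mul_factorial_mul_factorial]
    gcongr
    exact Nat.choose_le_two_pow _ _
  exact_mod_cast h

theorem ana {Q : Theory D} {W : Set V} {X : Module.End ℂ D} (s : L22.Sy X)
    (c : ∀ B g v, Q.fld B → P.In W g → X (B g v) = B g (X v)) (C : ℝ)
    (b : ∀ n : ℕ, ‖(X ^ n) Q.vac‖ ≤ C ^ (n + 1) * n !) :
    ∃ t : ℝ, 0 < t ∧ ∀ v, PW Q (MW W) v → ∀ m,
      Summable fun n : ℕ => ‖(((t : ℂ) • X) ^ (n + m)) v‖ / n ! := by
  obtain ⟨a, a1, ha⟩ : ∃ a : ℝ, 0 < a ∧ |C| ≤ a := ⟨|C| + 1, by positivity, by linarith⟩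
  refine ⟨1 / (8 * a), by positivity, fun v hv m => ?_⟩
  obtain ⟨Z, Z', hZ, rfl⟩ := exists_Al hv
  have c1 : ∀ w, X (Z w) = Z (X w) := by
    clear hv
    induction hZ with
    | one => exact fun _ => rfl
    | add _ _ _ _ _ _ i j => intro w; simp only [map_add, i, j]
    | smul _ _ _ _ i => intro w; simp only [map_smul, i]
    | fld A B g _ _ hA _ _ hg _ i => intro w; simp only [c A g _ hA hg, i]
  have cn : ∀ (n : ℕ) w, (X ^ n) (Z w) = Z ((X ^ n) w) := by
    intro n
    induction n with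
    | zero => exact fun _ => rfl
    | succ n i => intro w; simp only [pow_succ', Module.End.mul_apply, i, c1]
  have sn : ∀ (n : ℕ) u w, inner ℂ ((X ^ n) u) w = inner ℂ u ((X ^ n) w) := by
    intro n
    induction n with
    | zero => exact fun _ _ => rfl
    | succ n i =>
      intro u w
      rw [pow_succ', Module.End.mul_apply, s, i, ← Module.End.mul_apply, ← pow_succ, pow_succ']
  obtain ⟨K, K0, hK⟩ : ∃ K : ℝ, 0 ≤ K ∧ K ^ 2 = ‖Z' (Z Q.vac)‖ * a :=
    ⟨√_, Real.sqrt_nonneg _, Real.sq_sqrt (by positivity)⟩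
  have e (n : ℕ) : ‖(X ^ n) (Z Q.vac)‖ ≤ K * (2 * a) ^ n * n ! := by
    refine abs_le_of_sq_le_sq' ?_ (by positivity) |>.2
    have p : inner ℂ ((X ^ n) (Z Q.vac)) ((X ^ n) (Z Q.vac)) =
        inner ℂ (Z' (Z Q.vac)) ((X ^ (n + n)) Q.vac) := by
      rw [sn, ← Module.End.mul_apply, ← pow_add, cn, hZ.adj']
    have q : ‖(X ^ (n + n)) Q.vac‖ ≤ a ^ (n + n + 1) * (2 ^ (n + n) * n ! * n !) :=
      (b _).trans (mul_le_mul ((le_abs_self _).trans ((abs_pow _ _).trans_le
        (pow_le_pow_left₀ (abs_nonneg _) ha _))) (fact_add n n) (by positivity) (by positivity))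
    calc ‖(X ^ n) (Z Q.vac)‖ ^ 2 = ‖inner ℂ ((X ^ n) (Z Q.vac)) ((X ^ n) (Z Q.vac))‖ := by
          rw [inner_self_eq_norm_sq_to_K]; simp
      _ ≤ ‖Z' (Z Q.vac)‖ * (a ^ (n + n + 1) * (2 ^ (n + n) * n ! * n !)) := by
          rw [p]
          exact (norm_inner_le_norm _ _).trans (mul_le_mul_of_nonneg_left q (norm_nonneg _))
      _ = _ := by rw [mul_pow, mul_pow, hK]; ring
  refine Summable.of_nonneg_of_le (fun _ => by positivity) (fun n => ?_)
    ((summable_geometric_two.mul_right ((1 / 2) ^ m)).mul_left (K * m !))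
  have n0 : (0 : ℝ) < n ! := by positivity
  rw [div_le_iff₀ n0, smul_pow, LinearMap.smul_apply, norm_smul, norm_pow, Complex.norm_real,
    Real.norm_of_nonneg (by positivity)]
  calc _ ≤ (1 / (8 * a)) ^ (n + m) * (K * (2 * a) ^ (n + m) * (2 ^ (n + m) * n ! * m !)) := by
        gcongr
        exact (e _).trans (mul_le_mul_of_nonneg_left (fact_add n m) (by positivity))
    _ = K * m ! * (1 / (8 * a) * (2 * a) * 2) ^ (n + m) * n ! := by
        rw [mul_pow (_ * _), mul_pow (1 / _)]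
        generalize (1 / (8 * a)) ^ (n + m) = x
        generalize (2 * a) ^ (n + m) = y
        ring
    _ = _ := by
        have : 1 / (8 * a) * (2 * a) * 2 = 1 / 2 := by field_simp; norm_num
        rw [this, pow_add]

end Vale.Agent.P352R.Bz
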