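import Vale.Agent.P352.H246.Dens
import Vale.Agent.P352.H246.Words
import Vale.Agent.P352R.Pub

/-!
# P352R, block Bz: local polynomial vectors are a core for every smeared field (helper49)
-/

set_option autoImplicit false
set_option linter.all false

noncomputable section

open Filter Topology SchwartzMap
open scoped SchwartzMap

namespace Vale.Agent.P352R.Bz

open P352 H246

variable {D : Type*} [NormedAddCommGroup D] [InnerProductSpace ℂ D]

theorem core {Q : GF.Theory D} (c : ∀ S : Submodule ℂ D, Q.vac ∈ S →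
      (∀ B f v, Q.fld B → GF.IsTest f → v ∈ S → B f v ∈ S) → ∀ w, w ∈ S)
    {S : Set Mink} (hS : Big S) {B : GF.Fld D} {f : GF.Fn} (hB : Q.fld B)
    (hf : P.In Set.univ f) (v : D) {ε : ℝ} (he : 0 < ε) :
    ∃ u, PW Q S u ∧ ‖v - u‖ < ε ∧ ‖B f v - B f u‖ < ε := by
  obtain ⟨F, rfl⟩ := exists_fl hf.1
  have hF : IsTest Set.univ F := ⟨by
    have := hf.2.1.comp_homeomorph (EuclideanSpace.equiv (Fin 4) ℝ).toHomeomorph
    exact this, Set.subset_univ _⟩
  obtain ⟨B', hB', ad⟩ := Q.adj B hB
  let L : D →ₗ[ℂ] D × D :=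
    { toFun := fun v => (v, B (fl F) v)
      map_add' := fun v w => by rw [fld_add hB]; rfl
      map_smul' := fun a v => by rw [fld_smul hB]; rfl }
  let T : Submodule ℂ D := ((PS Q Set.univ).map L).topologicalClosure.comap L
  have cl : IsClosed (((PS Q Set.univ).map L).topologicalClosure : Set (D × D)) :=
    Submodule.isClosed_topologicalClosure _
  have k : ∀ {X X' : D → D}, WO Q X X' → ∀ w, PW Q Set.univ w → X w ∈ T := by
    intro X X' h
    induction h with
    | one => exact fun w hw => Submodule.le_topologicalClosure _ ⟨w, hw, rfl⟩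
    | fld A C g X X' hA hC hadj h ih =>
      intro w hw
      obtain ⟨e, he, lim⟩ := exists_compact_seq g
      exact cl.mem_of_tendsto ((((h.cont hA w).prodMk ((h.left hB hB' ad F).cont hA w)).tendsto
        g).comp lim) (.of_forall fun n => ih _ (.fld hA ⟨he n, Set.subset_univ _⟩ hw))
  have a : v ∈ Submodule.span ℂ {v | ∃ X X', WO Q X X' ∧ v = X Q.vac} := by
    refine c (Submodule.span ℂ {v | ∃ X X', WO Q X X' ∧ v = X Q.vac})
      (Submodule.subset_span ⟨_, _, .one, rfl⟩) (fun A g v hA hg hv => ?_) v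
    obtain ⟨G, rfl⟩ := exists_fl hg
    obtain ⟨C, hC, hadj⟩ := Q.adj A hA
    induction hv using Submodule.span_induction with
    | mem v hv =>
      obtain ⟨X, X', hX, rfl⟩ := hv
      exact Submodule.subset_span ⟨_, _, hX.left hA hC hadj G, rfl⟩
    | zero =>
      have := fld_smul hA G 0 (0 : D)
      rw [zero_smul, zero_smul] at this
      rw [this]
      exact zero_mem _
    | add v w _ _ h1 h2 =>
      rw [fld_add hA]
      exact add_mem h1 h2
    | smul a v _ h1 =>
      rw [fld_smul hA]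
      exact Submodule.smul_mem _ a h1
  have t : v ∈ T := Submodule.span_le.2 (by rintro _ ⟨X, X', hX, rfl⟩; exact k hX _ .vac) a
  obtain ⟨_, ⟨w, hw, rfl⟩, d⟩ := Metric.mem_closure_iff.1 t (ε / 2) (half_pos he)
  obtain ⟨u, hu, d1, d2⟩ := dense_en_fld hS 0 hB hF hw (half_pos he)
  rw [Prod.dist_eq, max_lt_iff, dist_eq_norm, dist_eq_norm] at d
  exact ⟨u, hu, (norm_sub_le_norm_sub_add_norm_sub v w u).trans_lt
      ((add_lt_add d.1 d1).trans_eq (add_halves ε)),
    (norm_sub_le_norm_sub_add_norm_sub _ (B (fl F) w) _).trans_lt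
      ((add_lt_add d.2 d2).trans_eq (add_halves ε))⟩

end Vale.Agent.P352R.Bz
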