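import Vale.Agent.P352R.L22.Ab
import Vale.Agent.P352W.Net.Wy

/-!
# P352R, block Bz: analytic vectors in a graph norm (helper22)
-/

set_option autoImplicit false
set_option linter.all false

noncomputable section

namespace Vale.Agent.P352R.Bz

open UniformSpace (Completion)
open Complex (I)
open Vale.Agent.P352W.Net L22 Filter Topology Finset
open scoped Nat

variable {D : Type*} [NormedAddCommGroup D] [InnerProductSpace ℂ D] {X Y C : Module.End ℂ D}
  {u : D} {t l : ℝ}

/-- analytic vectors -/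
def AV (Y : Module.End ℂ D) : Submodule ℂ D where
  carrier := {u | ∀ m, Summable fun n : ℕ => ‖(Y ^ (n + m)) u‖ / n !}
  add_mem' a b m := .of_nonneg_of_le (fun _ => by positivity) (fun n => by
    rw [map_add, ← add_div]; gcongr; exact norm_add_le _ _) ((a m).add (b m))
  zero_mem' m := by simp [summable_zero]
  smul_mem' c _ a m := by simpa only [map_smul, norm_smul, mul_div_assoc] using (a m).mul_left ‖c‖

theorem av_inv (h : u ∈ AV Y) : Y u ∈ AV Y := fun m => by
  simpa only [← add_assoc, pow_succ, Module.End.mul_apply] using h (m + 1)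

theorem av_pw (h : u ∈ AV Y) (k : ℕ) : (Y ^ k) u ∈ AV Y := by
  induction k with
  | zero => exact h
  | succ k ih => rw [pow_succ']; exact av_inv ih

theorem av_neg (h : u ∈ AV ((t : ℂ) • X)) : u ∈ AV (((-t : ℝ) : ℂ) • X) := fun m => by
  have := h m
  simp only [smul_pow, LinearMap.smul_apply, norm_smul, norm_pow, Complex.ofReal_neg, norm_neg]
    at this ⊢
  exact this

/-- partial sums -/
def ps (Y : Module.End ℂ D) (u : D) (n : ℕ) : D := ∑ k ∈ range n, tm Y u k

theorem lim (s : Sy Y) (h : u ∈ AV Y) : Tendsto (fun n => ‖ps Y u n‖) atTop (𝓝 ‖u‖) := by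
  let Z : Module.End ℂ (AV Y) := Y.restrict fun u (h : u ∈ AV Y) => av_inv h
  have e (k : ℕ) (v : AV Y) : ((Z ^ k) v : D) = (Y ^ k) v := by
    induction k with
    | zero => rfl
    | succ k ih => rw [pow_succ', pow_succ', Module.End.mul_apply, Module.End.mul_apply, ← ih]; rfl
  have a : An Z := ⟨fun v w => s v w, fun v => by
    have := v.2 0
    simp only [← e, add_zero] at this
    exact this⟩
  let v : AV Y := ⟨u, h⟩
  have b := inner_sum (a.sn v) (a.sn v) (a.hs v) (a.hs v)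
  simp only [Completion.inner_coe] at b
  have c : ‖W Z v‖ = ‖v‖ := by
    rw [norm_eq_sqrt_re_inner (𝕜 := ℂ), b.unique (a.iso0 v v), ← norm_eq_sqrt_re_inner]
  have d := (a.hs v).tendsto_sum_nat.norm
  rw [c] at d
  refine d.congr fun n => ?_
  rw [show ∑ i ∈ range n, ((tm Z v i : AV Y) : Completion (AV Y)) =
    ((∑ i ∈ range n, tm Z v i : AV Y) : Completion (AV Y)) from
      (map_sum (Completion.toComplₗᵢ (𝕜 := ℂ) (E := AV Y)) _ _).symm, Completion.norm_coe, Submodule.coe_norm,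
    Submodule.coe_sum]
  simp only [tm, ps, Submodule.coe_smul, e]
  rfl

theorem nel0 (s : Sy Y) (c : ∀ v, Y (C v) = C (Y v)) {ℓ : D →ₗ[ℂ] ℂ} {N r : ℝ} (hr : 0 < r)
    (b : ∀ u, ‖ℓ u‖ ≤ N * (‖u‖ + ‖C u‖)) (e : ∀ u, ℓ (Y u) = -(I * r) * ℓ u)
    (h : u ∈ AV Y) (h' : C u ∈ AV Y) : ℓ u = 0 := by
  have cp (k : ℕ) (v : D) : (Y ^ k) (C v) = C ((Y ^ k) v) := by
    induction k with
    | zero => rfl
    | succ k ih => rw [pow_succ', Module.End.mul_apply, Module.End.mul_apply, ih, c]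
  have ep (k : ℕ) (v : D) : ℓ ((Y ^ k) v) = (-(I * r)) ^ k * ℓ v := by
    induction k with
    | zero => simp
    | succ k ih => rw [pow_succ', Module.End.mul_apply, e, ih, pow_succ', mul_assoc]
  have key (k : ℕ) : ∀ u ∈ AV Y, C u ∈ AV Y → ‖ℓ u‖ ≤ N * (1 + r)⁻¹ ^ k * (‖u‖ + ‖C u‖) := by
    induction k with
    | zero => simpa using fun u _ _ => b u
    | succ k ih =>
      intro u h h'
      have p (n : ℕ) : C (ps Y u n) = ps Y (C u) n := by simp only [ps, tm, map_sum, map_smul, cp]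
      have m {v : D} (h : v ∈ AV Y) (n : ℕ) : ps Y v n ∈ AV Y :=
        Submodule.sum_mem _ fun k _ => Submodule.smul_mem _ _ (av_pw h k)
      have q (n : ℕ) : ℓ (ps Y u n) = ((∑ k ∈ range n, r ^ k / k ! : ℝ) : ℂ) * ℓ u := by
        push_cast
        simp only [ps, tm, map_sum, map_smul, ep, sum_mul, smul_eq_mul]
        refine sum_congr rfl fun k _ => ?_
        rw [← mul_assoc, div_mul_eq_mul_div, ← mul_pow, show I * -(I * r) = r by
          linear_combination (-(r : ℂ)) * Complex.I_mul_I]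
      have t := ((lim s h).add (lim s h')).const_mul (N * (1 + r)⁻¹ ^ k)
      rw [pow_succ, mul_comm _ (1 + r)⁻¹, mul_left_comm, mul_assoc, le_inv_mul_iff₀ (by positivity)]
      refine ge_of_tendsto t ((eventually_ge_atTop 2).mono fun n hn => ?_)
      have := ih _ (m h n) (p n ▸ m h' n)
      rw [p, q, norm_mul, Complex.norm_real] at this
      refine le_trans (mul_le_mul_of_nonneg_right (le_trans ?_ (le_abs_self _)) (norm_nonneg _)) this
      refine le_trans (by simp [sum_range_succ]) (sum_le_sum_of_subset_of_nonneg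
        (range_mono hn) fun _ _ _ => by positivity)
  have t := ((tendsto_pow_atTop_nhds_zero_of_lt_one (r := (1 + r)⁻¹) (by positivity)
    (inv_lt_one_of_one_lt₀ (by linarith))).const_mul N).mul_const (‖u‖ + ‖C u‖)
  rw [mul_zero, zero_mul] at t
  exact norm_le_zero_iff.1 (ge_of_tendsto' t fun k => key k u h h')

/-- the analytic vectors form a core -/
def Co (X C : Module.End ℂ D) : Prop := ∃ t : ℝ, 0 < t ∧ ∀ v, ∀ ε : ℝ, 0 < ε → ∃ u,
  u ∈ AV ((t : ℂ) • X) ∧ C u ∈ AV ((t : ℂ) • X) ∧ ‖v - u‖ < ε ∧ ‖C v - C u‖ < ε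

theorem van' (s : Sy X) (c : ∀ v, X (C v) = C (X v)) (k : Co X C) (hl : l ≠ 0) {ℓ : D →ₗ[ℂ] ℂ}
    {N : ℝ} (b : ∀ u, ‖ℓ u‖ ≤ N * (‖u‖ + ‖C u‖)) (e : ∀ u, ℓ (sh X l u) = 0) (v : D) :
    ℓ v = 0 := by
  obtain ⟨t, ht, k⟩ := k
  have z (τ : ℝ) (p : 0 < τ * l) {u : D} (h : u ∈ AV ((τ : ℂ) • X)) (h' : C u ∈ AV ((τ : ℂ) • X)) :
      ℓ u = 0 := nel0 (fun v w => by simp [inner_smul_left, inner_smul_right, s v w])
        (fun v => by simp [c]) p b (fun u => by
          have := e u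
          rw [sh_ap, map_add, map_smul, smul_eq_mul] at this
          rw [LinearMap.smul_apply, map_smul, smul_eq_mul]
          push_cast
          linear_combination (τ : ℂ) * this) h h'
  refine norm_le_zero_iff.1 (le_of_forall_pos_le_add fun ε hε => ?_)
  obtain ⟨u, h, h', a, a'⟩ := k v (ε / (2 * (|N| + 1))) (by positivity)
  have y : ℓ u = 0 := by
    rcases hl.lt_or_gt with p | p
    exacts [z (-t) (by nlinarith) (av_neg h) (av_neg h'), z t (mul_pos ht p) h h']
  have := b (v - u)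
  rw [map_sub, y, sub_zero, map_sub] at this
  refine this.trans ((mul_le_mul (le_abs_self N) (add_le_add a.le a'.le) (by positivity)
    (abs_nonneg N)).trans ?_)
  rw [zero_add, ← two_mul, ← mul_div_assoc, ← mul_div_assoc, div_le_iff₀ (by positivity)]
  nlinarith

theorem ex_res' (s : Sy X) (k : Co X 1) : ∃ R, Rs X 1 R := by
  let i : D →ₗ[ℂ] Completion D := (Completion.toComplₗᵢ (𝕜 := ℂ)).toLinearMap
  have d (m : ℝ) (e : m ≠ 0) : Dn (sh X m) := fun z hz => dn_id fun v =>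
    van' (C := 1) s (fun _ => rfl) k e (ℓ := (innerSL ℂ z).toLinearMap ∘ₗ i) (N := ‖z‖)
      (fun u => (norm_inner_le_norm (𝕜 := ℂ) z (u : Completion D)).trans (by
        rw [Completion.norm_coe]; gcongr; exact le_add_of_nonneg_right (norm_nonneg _))) hz v
  refine ⟨i.extendOfNorm (i.comp (sh X 1)), d 1 one_ne_zero, d _ (by norm_num), fun v =>
    LinearMap.extendOfNorm_eq (f := i) (e := i.comp (sh X 1)) (d 1 one_ne_zero).dr
      ⟨1, fun x => ?_⟩ v⟩
  show ‖(x : Completion D)‖ ≤ 1 * ‖((sh X 1 x : D) : Completion D)‖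
  rw [Completion.norm_coe, Completion.norm_coe, one_mul]
  have b := (le_abs_self _).trans ((Complex.abs_im_le_norm (inner ℂ x (sh X 1 x))).trans
    (norm_inner_le_norm _ _))
  rw [im_sh s] at b
  rcases (norm_nonneg x).eq_or_lt with e | e
  · rw [← e]; exact norm_nonneg _
  · exact le_of_mul_le_mul_left (by nlinarith) e

theorem st' {R : Completion D →L[ℂ] Completion D} (s : Sy X) (r : Rs X l R) (hl : l ≠ 0)
    (c : ∀ v, X (C v) = C (X v)) (k : Co X C) : St C R := fun x y e u => by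
  let i : D →ₗ[ℂ] Completion D := (Completion.toComplₗᵢ (𝕜 := ℂ)).toLinearMap
  rw [← sub_eq_zero]
  refine van' s c k hl (ℓ := (innerSL ℂ x).toLinearMap ∘ₗ R.toLinearMap ∘ₗ i -
    (innerSL ℂ y).toLinearMap ∘ₗ R.toLinearMap ∘ₗ i ∘ₗ C) (N := ‖x‖ * ‖R‖ + ‖y‖ * ‖R‖)
    (fun v => ?_) (fun v => ?_) u
  · have t (z : Completion D) (q : D) : ‖inner ℂ z (R q)‖ ≤ ‖z‖ * ‖R‖ * ‖q‖ :=
      (norm_inner_le_norm _ _).trans (by
        rw [mul_assoc, ← Completion.norm_coe q]
        exact mul_le_mul_of_nonneg_left (R.le_opNorm _) (norm_nonneg _))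
    refine (norm_sub_le (inner ℂ x (R v)) (inner ℂ y (R (C v : D)))).trans
      ((add_le_add (t x v) (t y _)).trans ?_)
    nlinarith [mul_nonneg (mul_nonneg (norm_nonneg x) (norm_nonneg R)) (norm_nonneg (C v)),
      mul_nonneg (mul_nonneg (norm_nonneg y) (norm_nonneg R)) (norm_nonneg v)]
  · have q : C (sh X l v) = sh X l (C v) := by simp only [sh_ap, map_add, map_smul, c]
    show inner ℂ x (R (sh X l v : D)) - inner ℂ y (R (C (sh X l v) : D)) = 0
    rw [q, r.2.2, r.2.2, e v, sub_self]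

theorem aff' {S : Module.End ℂ D → Prop} {Y : Completion D →L[ℂ] Completion D}
    (s : ∀ X, S X → Sy X ∧ Co X 1 ∧ Co X C) {C' : D → D}
    (ad : ∀ v w, inner ℂ (C v) w = inner ℂ v (C' w)) (c : ∀ X, S X → ∀ v, X (C v) = C (X v))
    (y : Y ∈ vn (RR S)) (v w : D) : inner ℂ ((C' w : D) : Completion D) (Y v) =
      inner ℂ (w : Completion D) (Y (C v : D)) := by
  refine bic2 {Y | St C Y ∧ St C (star Y)} ⟨fun a b h => h, by rw [star_one]; exact fun a b h => h⟩
    (fun a x b y => ⟨x.1.mul y.1, by rw [star_mul]; exact y.2.mul x.2⟩)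
    (fun a x => ⟨x.2, by rw [star_star]; exact x.1⟩) (fun Z hZ => mem_vn.1 y Z
      ((mem_cmt (rr_star fun A a => (s A a).1)).2 ?_)) fun a x => x.1 _ _ (fun u => ?_) v
  · rintro g ⟨A, l, a, r⟩
    obtain ⟨p, q, o⟩ := s A a
    obtain ⟨T, t⟩ := ex_res' p q
    exact r.cm p (t.wk p (hZ T ⟨st' p t one_ne_zero (c A a) o,
      st' p (t.star p) (by norm_num) (c A a) o⟩))
  · rw [Completion.inner_coe, Completion.inner_coe, ← inner_conj_symm, ← ad, inner_conj_symm]

end Vale.Agent.P352R.Bz
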