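import Vale.Agent.P352R.Pub
import Vale.Agent.P352R.Cf.Pub

namespace Vale.Agent.P352R.P

open P352.GF

variable {D : Type*} [NormedAddCommGroup D] [InnerProductSpace ℂ D]

/-- **Analytic vacuum.** The domain is generated from the vacuum by the fields of `Q`, and `Q`
contains a theory `R` (same vacuum, which is cyclic for the fields of `R`, and same representation)
with countably many covariant Bose fields, such that the vacuum is an analytic vector for the
hermitian parts of the smeared fields of `R`. -/
structure AnV (Q R : Theory D) (A : (V → V) → D → D) : Prop extends Rep Q A where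
  gen : ∀ S : Submodule ℂ D, Q.vac ∈ S →
    (∀ B f v, Q.fld B → IsTest f → v ∈ S → B f v ∈ S) → ∀ w, w ∈ S
  sub : IsEnl R Q
  cnt : CntF R
  bose : ∀ B, R.fld B → R.bose B
  ana : ∀ B B' f, R.fld B → IsAdj B B' → In Set.univ f → ∃ C : ℝ, ∀ n : ℕ,
    ‖(fun w => B f w + B' (bar f) w)^[n] Q.vac‖ ≤ C ^ (n + 1) * n.factorial

end Vale.Agent.P352R.P
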