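import Vale.Agent.P352R.L22.Net
import Vale.Agent.P352R.Bz.Pub
import Vale.Agent.P352R.Bz.Nel
import Vale.Agent.P352R.Bz.Core
import Vale.Agent.P352R.Bz.Ana
import Vale.Agent.P352.H496.LFam

/-!
# P352R, block Bz: an analytic vacuum gives a local algebra (helper22)
-/

set_option autoImplicit false
set_option linter.all false

noncomputable section

namespace Vale.Agent.P352R.Bz

open Vale.Agent.P352 Vale.Agent.P352.GF Vale.Agent.P352.BW Vale.Agent.P352W.Net
open Vale.Agent.P352.H246 Vale.Agent.P352.H15 Vale.Agent.P352X L22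
open UniformSpace (Completion)
open Complex (I)
open scoped Nat

variable {D : Type*} [NormedAddCommGroup D] [InnerProductSpace ℂ D] {Q R : Theory D}
  {A : (V → V) → D → D} {O S : Set V} {B B' : Fld D} {f : Fn} {X : Module.End ℂ D}

theorem co (h : P.AnV Q R A) (x : Cl R S X) : Co X 1 ∧ ∀ B B' f, Q.fld B → ∀ (ad : P.IsAdj B B')
    (hf : P.In Set.univ f), (∀ g, P.In S g → Sep g f) →
      Co X (lin (B f) _ fun v w => ad f v w hf.1) := by
  have sy := x.sy
  obtain ⟨E, E', g, c, a, a', ae, hg, e⟩ := x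
  obtain ⟨S0, big, sub, -⟩ := H496.exists_big (ι := Empty) hg.2.1.isCompact (fun i => i.elim)
    fun i => i.elim
  have big : Big (MW (P.cc (tsupport g))) := fun r => (big r).imp fun _ b x hx => sub (b x hx)
  obtain ⟨C, b⟩ := h.ana (c • E) (star c • E') g (by
      obtain ⟨T, -, k⟩ := h.cnt.cnt
      exact (k _).2 (Submodule.smul_mem _ _ ((k _).1 a))) (fun f v w hf => by
      simp only [Pi.smul_apply, inner_smul_left, inner_smul_right, ae f v w hf]
      rfl) (Ap.in_univ' hg)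
  have x : Cl R (tsupport g) X := ⟨E, E', g, c, a, a', ae, ⟨hg.1, hg.2.1, subset_rfl⟩, e⟩
  obtain ⟨t, ht, k⟩ := ana (Q := Q) (W := P.cc (tsupport g)) sy (fun B f v hB hf => by
      obtain ⟨B', -, ad⟩ := Q.adj B hB
      exact x.cm (C := lin (B f) _ fun v w => ad f v w hf.1) (fun C g' v hC hg' =>
        Q.loc C B g' f v (h.sub.bose C (h.bose C hC)) hB hg'.1 hf.1
          fun x hx y hy => hf.2.2 hy x (hg'.2.2 hx)) v) C fun n => by
      rw [Module.End.pow_apply, show ⇑X = _ from funext e]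
      exact b n
  refine ⟨⟨t, ht, fun v ε p => ?_⟩, fun B B' f hB ad hf sp => ⟨t, ht, fun v ε p => ?_⟩⟩
  · obtain ⟨u, hu, d⟩ := Metric.mem_closure_iff.1 (dense_big (Q := Q) big v) ε p
    rw [dist_eq_norm] at d
    exact ⟨u, k u hu, k u hu, d, d⟩
  · obtain ⟨u, hu, d⟩ := core h.gen big hB hf v p
    obtain ⟨F, rfl⟩ := exists_fl hf.1
    exact ⟨u, k u hu, k _ (.fld hB (In_fl.1 ⟨hf.1, hf.2.1, fun y hy x hx => sp g hg x hx y hy⟩) hu),
      d⟩

theorem wk (h : P.AnV Q R A) (hB : Q.fld B) (ad : P.IsAdj B B') (hf : P.In Set.univ f)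
    (sp : ∀ g, P.In S g → Sep g f) {Y : Completion D →L[ℂ] Completion D} (y : Y ∈ N0 R S)
    (v w : D) : inner ℂ ((B' (bar f) w : D) : Completion D) (Y v) =
      inner ℂ (w : Completion D) (Y (B f v : D)) :=
  aff' (C := lin (B f) _ fun v w => ad f v w hf.1)
    (fun _ x => ⟨x.sy, (co h x).1, (co h x).2 B B' f hB ad hf sp⟩) (fun v w => ad f v w hf.1)
    (fun Z x => x.cm fun C g v hC hg =>
      Q.loc C B g f v (h.sub.bose C (h.bose C hC)) hB hg.1 hf.1 (sp g hg)) y v w

theorem lnm1 (h : P.AnV Q R A) (r : Rep R A) : LNm R A (N0 R) where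
  toRep := r
  fld O B f hB hf := by
    obtain ⟨B', hB', ad⟩ := R.adj B hB
    refine ⟨B' (bar f), fun v w => ad f v w hf.1, fun Y hY v w => ?_⟩
    rw [N0, vn_comm, mem_cmt st0] at hY
    have k (z : ℂ) : Wk (hp ad hf.1 z) Y := by
      have x : Cl R O (hp ad hf.1 z) := ⟨B, B', f, z, hB, hB', ad, hf, fun v => rfl⟩
      obtain ⟨T, t⟩ := ex_res' x.sy (co h x).1
      exact t.wk x.sy (hY T ⟨_, _, x, t⟩)
    have e (z : ℂ) (v : D) : hp ad hf.1 z v = z • B f v + star z • B' (bar f) v := rfl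
    have k1 := k 1 v w
    have k2 := k I v w
    simp only [e, Completion.coe_add, Completion.coe_smul, map_add, map_smul, inner_add_left,
      inner_add_right, inner_smul_left, inner_smul_right, RCLike.star_def, map_one, Complex.conj_I,
      map_neg, one_mul] at k1 k2
    linear_combination (1 / 2 : ℂ) * k1 - (I / 2) * k2 + (1 / 2 : ℂ) *
      (inner ℂ ((B' (bar f) w : D) : Completion D) (Y v) -
        inner ℂ (w : Completion D) (Y (B f v : D)) - inner ℂ ((B f w : D) : Completion D) (Y v) +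
        inner ℂ (w : Completion D) (Y (B' (bar f) v : D))) * Complex.I_mul_I
  mono O O' le := vn_mono st0 st0 fun _ ⟨X, n, ⟨B, B', f, z, a, b, c, d, e⟩, r⟩ =>
    ⟨X, n, ⟨B, B', f, z, a, b, c, Ap.in_mono d le, e⟩, r⟩
  cov s L y O X m hs hL := by
    obtain ⟨U, i, i', hU⟩ := L1.ex_u r hs hL y
    obtain ⟨Y, hY, e⟩ := vn_cov st0 (st0 (S := sim s L y '' O)) U (star U) i i' (by
      rintro g ⟨Z, n, x, q⟩
      obtain ⟨Z', x', e⟩ := push r h.cnt hs hL y x
      exact ⟨U * g * star U, ⟨Z', n, x', q.conj (fun v => ⟨_, ue_inv r hs hL y v⟩)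
        (fun v => (hU v).trans (ue_coe hs hL y v)) i' e⟩, by rw [mul_assoc, i', mul_one]⟩) X m
    exact ⟨Y, hY, fun z => by rw [← hU, ← hU]; exact DFunLike.congr_fun e z⟩
  loc a b' X ha hb hab := vn_loc st0 st0 (by
    rintro g hg g' ⟨Z', n', x', r'⟩
    have y : g ∈ N0 R (P.Wdg b' a 0) := mem_vn.2 fun Z hZ => ((mem_cmt st0).1 hZ g hg).symm
    refine (r'.cm x'.sy fun v w => ?_).symm
    obtain ⟨B, B', f, c, p, p', ad, hf, e⟩ := x'
    have k1 := wk h (h.sub.fld B p) ad (Ap.in_univ' hf)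
      (fun g hg => Ap.sep_symm (Ap.sep_wdg ha hb hf.2.2 hg.2.2)) y v w
    have k2 := wk h (h.sub.fld B' p') (adj' ad) (Ap.in_univ' (Ap.in_bar hf))
      (fun g hg => Ap.sep_symm (Ap.sep_wdg ha hb (Ap.in_bar hf).2.2 hg.2.2)) y v w
    rw [bar_bar] at k2
    simp only [e, Completion.coe_add, Completion.coe_smul, map_add, map_smul, inner_add_left,
      inner_add_right, inner_smul_left, inner_smul_right, k1, k2, RCLike.star_def,
      Complex.conj_conj, add_comm]) X

/-- **an analytic vacuum gives a local algebra** -/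
theorem lc1 (h : P.AnV Q R A) (n : O ∈ nhds 0) (b : Bornology.IsBounded O) :
    ∃ M, P.Lc1 Q A O M := by
  have r : Rep R A := Br.rep.1 ⟨by rw [← h.sub.U]; exact h.mul, h.add, by
    unfold P.Gnr; rw [← h.sub.U]; exact h.der⟩
  have N := lnm1 h r
  have d := (H268.s0 (P352H.tfg r (Cf.cfb_all R A _ N h.cnt).1) (P352L.StA.lnm N)).vnet.dual
  have u : P.Trf Q = P.Trf R := by
    funext O M W X
    unfold P.Trf P.Ue
    rw [h.sub.U]
  refine ⟨(N0 R (P.cc O)).commutant, h.toRep, ⟨n, b⟩, fun B f hB hf => ?_,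
    fun a c X Y ha hc hac x y => ?_⟩
  · obtain ⟨B', hB', ad⟩ := Q.adj B hB
    refine ⟨B' (bar f), fun v w => ad f v w hf.1, fun Y hY => ?_⟩
    rw [VonNeumannAlgebra.commutant_commutant] at hY
    exact wk (S := P.cc O) h hB ad (Ap.in_univ' hf)
      (fun g hg => Ap.sep_symm fun x hx y hy => hg.2.2 hy x (hf.2.2 hx)) hY
  · rw [u] at x y
    exact VonNeumannAlgebra.mem_commutant_iff.1 (tr N (fun _ p _ q => Ap.wdg_opp ha hc p q) y) X
      ((d a c X ha hc hac).2 (tr N (fun _ p _ q => Ap.wdg_opp hc ha p q) x))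

end Vale.Agent.P352R.Bz
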