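import Vale.Agent.P352R.L22.Wit
import Vale.Agent.P352R.Bz.Pub
import Vale.Agent.P352X.EB.ANA
import Vale.Agent.P352.BW.T.Rs

/-!
# P352R, block Bz: the vacuum is analytic for the free field (helper89)
-/

set_option autoImplicit false
set_option linter.all false

noncomputable section

namespace Vale.Agent.P352R.Bz

open P352 GF H246 H15 BW P352X P352W P352W.Net P352R.Cf
open P352.ND (PCh)
open P352L.StA (hull sp_of sp_ind)
open UniformSpace (Completion)
open Filter Topology

variable {E : Type*} [NormedAddCommGroup E] [InnerProductSpace ℂ E] {Q : Theory E} {φ : Fld E}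
  {A : (V → V) → E → E}

theorem cyc0 (hφ : Q.IsScalar φ 1) (r : Raw φ Q.fld) (an : Ana φ)
    (gn : ∀ S : Submodule ℂ E, Q.vac ∈ S →
      (∀ B f v, Q.fld B → IsTest f → v ∈ S → B f v ∈ S) → ∀ v, v ∈ S)
    (S : Submodule ℂ E) (h0 : Q.vac ∈ S) (k : ∀ f v, IsTest f → v ∈ S → φ f v ∈ S) :
    Dense (S : Set E) := by
  let K : Submodule ℂ (Completion E) :=
    (S.map (Completion.toComplL : E →L[ℂ] Completion E).toLinearMap).topologicalClosure
  have cl : IsClosed (K : Set (Completion E)) := Submodule.isClosed_topologicalClosure _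
  haveI : CompleteSpace K := cl.completeSpace_coe
  have m (v : E) (hv : v ∈ S) : (v : Completion E) ∈ K :=
    Submodule.le_topologicalClosure _ ⟨v, hv, rfl⟩
  have inv : ∀ g ∈ Net.gen φ Set.univ, ∀ z ∈ K, g z ∈ K := by
    rintro _ ⟨f, X, hf, e, hX, rfl⟩ z hz
    refine closure_minimal (t := Net.W X ⁻¹' K) ?_ (cl.preimage (Net.W X).continuous) hz
    rintro _ ⟨v, hv, rfl⟩
    have p (n : ℕ) : (X ^ n) v ∈ S := by
      induction n with
      | zero => exact hv
      | succ n ih => rw [pow_succ', Module.End.mul_apply, hX]; exact k _ _ hf.1 ih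
    exact cl.mem_of_tendsto ((an f X hf.1 e hX).hs v).tendsto_sum_nat
      (.of_forall fun n => K.sum_mem fun i _ => m _ (S.smul_mem _ (p i)))
  have st := gen_star (Q := Q) r.phi an Set.univ
  have c : K.starProjection ∈ (net φ Set.univ).commutant := by
    rw [net, vn_comm, mem_cmt st]
    intro g hg
    ext z
    refine (Submodule.eq_starProjection_of_mem_of_inner_eq_zero
      (inv g hg _ (K.starProjection_apply_mem z)) fun w hw => ?_).symm
    show inner ℂ (g z - _) w = 0
    rw [← map_sub, ← ContinuousLinearMap.adjoint_inner_right]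
    exact K.starProjection_inner_eq_zero _ _ (inv _ (st g hg) w hw)
  have a := gn (K.comap (Completion.toComplL : E →L[ℂ] Completion E).toLinearMap) (m _ h0)
    fun B f v hB ⟨G, hG⟩ hv => by
      subst hG
      refine cl.mem_of_tendsto (((Completion.continuous_coe E).comp (r.cont B v hB)).tendsto G |>.comp
        (EB.Ana.lim G)) (.of_forall fun n => ?_)
      have i := EB.ana_row.inn n (ev G) ⟨G, rfl⟩
      rw [← EB.Ana.ev_P] at i
      have i' : In Set.univ (ev (EB.Ana.P n G)) := ⟨i.1, i.2.1, Set.subset_univ _⟩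
      refine Submodule.starProjection_eq_self_iff.1 (ext_inner_left ℂ fun z => ?_)
      refine Completion.induction_on z (isClosed_eq (by fun_prop) (by fun_prop)) fun w => ?_
      have := (r.ps B hB).pair isOpen_univ i' (Y := fun v => K.starProjection v)
        (Y' := fun v => K.starProjection v)
        (fun w v => (K.inner_starProjection_left_eq_right _ _).symm)
        (fun g w v hg => net_weak hφ an hg c v w) w v
      rw [Submodule.starProjection_eq_self_iff.2 (show (v : Completion E) ∈ K from hv),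
        Completion.inner_coe, r.herm B _ _ _ hB (Gl.test_bar i.1), bar_bar,
        ← Completion.inner_coe] at this
      exact this.symm
  intro v
  rw [(Completion.isUniformInducing_coe E).isInducing.closure_eq_preimage_closure_image]
  exact a v

/-- the vacuum is analytic for the multiples of the field -/
theorem anv (h : Rep Q A) (hφ : Q.IsScalar φ 1) (r : Raw φ Q.fld) (an : Ana φ)
    (gn : ∀ S : Submodule ℂ E, Q.vac ∈ S →
      (∀ B f v, Q.fld B → IsTest f → v ∈ S → B f v ∈ S) → ∀ v, v ∈ S) :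
    ∃ R, P.AnV (hull Q) R A ∧ ∀ B, R.fld B ↔ B ∈ Submodule.span ℂ {φ} := by
  let R := subT Q (· = φ) (fun _ e => e ▸ r.phi) (fun _ e => ⟨φ, rfl, e ▸ hφ.2.1⟩)
    fun S a b => cyc0 hφ r an gn S a fun f v => b φ f v rfl
  have b : ∀ B, R.fld B → R.bose B := fun B e => ⟨(show B = φ from e) ▸ hφ.1, e⟩
  refine ⟨hull R, ⟨Br.rep.2 (P352L.StA.rep h), fun S a k => gn S a fun B f v e => k B f v (sp_of e),
    ⟨rfl, rfl, fun _ x => Submodule.span_mono (fun B (e : B = φ) => e ▸ r.phi) x,
      fun _ x => Submodule.span_mono (fun B (e : R.bose B) => e.1) x⟩,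
    Wb.cntF (Set.countable_singleton φ) b (fun s L v hs hL => ?_) fun s L B hs hL e => ?_,
    fun B x => Submodule.span_mono b x, fun B B' f hB ad hf => ?_⟩, fun _ => Iff.rfl⟩
  · refine (h.mul s L 0 s⁻¹ (linv L) 0 v hs (inv_pos.2 hs) hL (isLor_linv hL)).trans ?_
    rw [H755.linv_id hL, mul_inv_cancel₀ hs.ne', show sim s L 0 0 = 0 from
      funext fun n => by simp [sim]]
    exact H755.Uone (Q := Q) v
  · rw [show B = φ from e]
    exact ⟨Unit, inferInstance, fun _ => ((s ^ ((4 : ℝ) - 1) : ℝ) : ℂ), fun _ => φ, fun _ => rfl,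
      fun f v hf => (hφ.2.2 s L 0 f v hs hL hf).trans (by rw [Fintype.sum_unique]; rfl)⟩
  · obtain ⟨c, rfl⟩ := Submodule.mem_span_singleton.1 hB
    have t1 := (in_smul (O := Set.univ) hf c).1
    have t2 := Gl.test_bar hf.1
    have tg : IsTest fun x => c * f x + star c * bar f x :=
      (Ap.in_add (in_smul (O := Set.univ) hf c) (in_smul (Ap.in_bar hf) (star c))).1
    have e : (fun w => (c • φ) f w + B' (bar f) w) =
        lm r.phi tg := funext fun w => by
      show c • φ f w + _ = φ _ w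
      rw [Q.lin φ _ _ _ w r.phi t1 t2, fld_sm r.phi hf.1]
      refine congrArg _ (ext_inner_left ℂ fun v => ?_)
      rw [← ad f v w hf.1, inner_smul_right, ← hφ.2.1 f v w hf.1]
      exact inner_smul_left _ _ _
    have a := (an _ (lm r.phi tg) tg (funext fun x => by
      simp [bar, add_comm]) fun _ => rfl).sum Q.vac
    obtain ⟨K, hK⟩ := a.tendsto_atTop_zero.bddAbove_range
    refine ⟨max K 1, fun n => ?_⟩
    have k := hK ⟨n, rfl⟩
    rw [div_le_iff₀ (by positivity)] at k
    rw [e, ← Module.End.pow_apply]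
    refine k.trans (mul_le_mul_of_nonneg_right ((le_max_left K 1).trans ?_) (by positivity))
    exact le_self_pow₀ (le_max_right K 1) n.succ_ne_zero

/-- **the witness**, with energy bounds and analytic vacuum -/
theorem witF : ∃ (D : Type) (_ : NormedAddCommGroup D)
    (_ : InnerProductSpace ℂ D) (Q : Theory D) (T : Ix → Ix → Fld D) (A : (V → V) → D → D)
    (N : Set V → VonNeumannAlgebra (Completion D)), (Stress0 Q T ∧ PCh Q T A ∧
      (MfAll Q ∧ FSL Q) ∧ P.CntF Q ∧ LNm Q A N ∧ L.UVac Q ∧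
      (∃ φ, Q.IsScalar φ 1 ∧ ∃ f, IsTest f ∧ φ f Q.vac ≠ 0) ∧
      ¬FiniteDimensional ℂ (Completion D) ∧ ∃ f, IsTest f ∧ tr T f Q.vac ≠ 0) ∧
      (∀ w, P352NA.Cyc Q w) ∧ (∀ B, Q.fld B → Q.bose B) ∧ P.EnB Q Q A ∧ ∃ R, P.AnV Q R A := by
  have h := free
  obtain ⟨A, hA⟩ := h.rep
  obtain ⟨N, hN⟩ := Net.lnm hA h.scalar h.raw h.fil
  obtain ⟨v, n, p⟩ := h.perp hA
  obtain ⟨F, ex, fl⟩ := h.fil
  have s := P352H.str (h.stress hA)
  have r := (P352L.StA.lnm hN).toRep
  have l := L22.eb1 r (Wg.lb (Q := h.th) (Eb.eb fun _ _ => Fk.Cov.wd_gm one_pos isLor_one))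
  exact ⟨_, _, _, hull h.th, _, A, N, ⟨⟨s.bose, s.symm, s.herm,
    fun m n L a f v => s.cov m n 1 L a f v one_pos, s.conserved, s.charge⟩,
    P352H.pch hA h.fT (h.pch hA), ⟨P352H.mfa h.mf, P352H.fsl h.fsl⟩, Wb.free_cntF h,
    P352L.StA.lnm hN, h.uvac, ⟨_, ⟨sp_of h.fp, h.scalar.2⟩, h.nzp⟩, nz_dim hA h.uvac n p, h.nz⟩,
    fun w S a b => h.gen S a (fun B f v k => b B f v (sp_of k)) w, fun _ b => b,
    ⟨Br.rep.2 r, ⟨rfl, rfl, fun _ a => a, fun _ a => a⟩, Wb.free_cntF h, fun _ b => b, l,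
    fun B f a b => ⟨1, l B f a b⟩⟩,
    (anv hA h.scalar h.raw (ana_of h.scalar F ex (fun f n v hf => (fl f hf).1 n v)
      fun f hf => (fl f hf).2) h.gen).imp fun _ => And.left⟩

end Vale.Agent.P352R.Bz
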