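import Vale.Agent.P352R.En.Wit
import Vale.Agent.P352R.Bz.Pub

/-!
# P352R, block Bz: the witness with all Wick polynomials (helper22, after helper89)
-/

set_option autoImplicit false
set_option linter.all false

noncomputable section

namespace Vale.Agent.P352R.Bz

open P352 GF H246 H15 BW P352X P352W P352W.Net
open P352L.StA (hull sp_of)
open UniformSpace (Completion)

theorem anvR {E : Type*} [NormedAddCommGroup E] [InnerProductSpace ℂ E] {Ω : E} {φ : Fld E}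
    {T : Ix → Ix → Fld E} {U : ℝ → (Ix → V) → V → E → E} {F : Fld E → Prop} (h : Fr Ω φ T U F)
    {A : (V → V) → E → E} (r : P.EnB h.tq (hull h.t0) A) : P.AnV h.tq (hull h.t0) A := by
  obtain ⟨G, ex, fl⟩ := h.fil
  have an : Ana φ := ana_of h.scalar G ex (fun f n v hf => (fl f hf).1 n v) fun f hf => (fl f hf).2
  refine ⟨r.toRep, fun S a k => h.gen S a fun B f v e => k B f v (sp_of e), r.sub, r.cnt, r.bose,
    fun B B' f hB ad hf => ?_⟩
  obtain ⟨c, rfl⟩ := Submodule.mem_span_singleton.1 hB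
  have p : h.th.fld φ := h.pφ
  have t1 := (in_smul (O := Set.univ) hf c).1
  have t2 := Gl.test_bar hf.1
  have tg : IsTest fun x => c * f x + star c * bar f x :=
    (Ap.in_add (in_smul (O := Set.univ) hf c) (in_smul (Ap.in_bar hf) (star c))).1
  have e : (fun w => (c • φ) f w + B' (bar f) w) = lm p tg := funext fun w => by
    show c • φ f w + _ = φ _ w
    rw [h.lin φ _ _ _ w p t1 t2, fld_sm p hf.1]
    refine congrArg _ (ext_inner_left ℂ fun v => ?_)
    rw [← ad f v w hf.1, inner_smul_right, ← h.herm φ f v w p hf.1]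
    exact inner_smul_left _ _ _
  have a := (an _ (lm p tg) tg (funext fun x => by simp [bar, add_comm]) fun _ => rfl).sum Ω
  obtain ⟨K, hK⟩ := a.tendsto_atTop_zero.bddAbove_range
  refine ⟨max K 1, fun n => ?_⟩
  have k := hK ⟨n, rfl⟩
  rw [div_le_iff₀ (by positivity)] at k
  rw [e, ← Module.End.pow_apply]
  refine k.trans (mul_le_mul_of_nonneg_right ((le_max_left K 1).trans ?_) (by positivity))
  exact le_self_pow₀ (le_max_right K 1) n.succ_ne_zero

open P in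
/-- **the witness**, with energy bounds and analytic vacuum -/
theorem witR : ∃ (E : Type) (_ : NormedAddCommGroup E) (_ : InnerProductSpace ℂ E)
    (Q R : Theory E) (T : Ix → Ix → Fld E) (A : (V → V) → E → E)
    (N : Set V → VonNeumannAlgebra (Completion E)) (φ : Fld E), ((P.Stress0 Q T ∧ P.PCh Q T A ∧
      (P.TfGen Q ∨ MfA Q) ∧ P.FSL Q ∧ P.LNm Q A N ∧ P.UVac Q ∧ P.Rec Q) ∧ P.TfGen Q ∧ MfA Q ∧
      (P.Sect Q Q .id ∧ P.Gr Q id ∧ Gnr Q A) ∧
      (∃ φ, Q.IsScalar φ 1 ∧ ∃ f, IsTest f ∧ φ f Q.vac ≠ 0) ∧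
      ¬FiniteDimensional ℂ (Completion E) ∧ ∃ f, IsTest f ∧ tr T f Q.vac ≠ 0) ∧ CntF Q ∧
      EnB Q R A ∧ AnV Q R A ∧ (∀ B, R.fld B ↔ B ∈ Submodule.span ℂ {φ}) ∧ Q.IsScalar φ 1 ∧
      ∃ f, IsTest f ∧ φ f Q.vac ≠ 0 :=
  have ⟨A, N, k⟩ := fr.topQ rec_fr
  have r := (Br.lnm.1 k.1.2.2.2.2.1).toRep
  have e := En.W22.enb (A := A) ⟨r.mul, r.add, r.der⟩
  ⟨D, _, _, fr.tq, _, Tm, A, N, Ph, k, cntF_tq, e, anvR fr e, fun _ => Iff.rfl,
    ⟨sp_of fr.pφ, fr.scalar.2⟩, fr.nzp⟩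

end Vale.Agent.P352R.Bz
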